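import Vale.Agent.P039.Bz.Stmt
import Vale.Agent.P039.H84.CycRank
import Vale.Agent.P039.H484.Hall2

/-! STEP 5: a 3-edge-connected spherical web whose 3-edge-cuts are trivial has two disjoint
matchings of the black vertices off the root with the faces off the root. -/

set_option linter.unusedSectionVars false

namespace Vale.Agent.P039.H622

open Finset Vale.Agent.P039.Bn Vale.Agent.P039.Bz

/-! Local counts at a vertex: `x c` says whether the face of class `c` is in `K`. -/

/-- number of faces in `K` -/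
def nn (x : Fin 3 → Bool) : ℕ := ∑ i, if x i then 1 else 0
/-- number of edges on the boundary of a face in `K` -/
def dd (x : Fin 3 → Bool) : ℕ := ∑ i, if x (i + 1) || x (i + 2) then 1 else 0
/-- exactly one face in `K` -/
def oo (x : Fin 3 → Bool) : ℕ := ∑ i, if x i && !(x (i + 1) || x (i + 2)) then 1 else 0
/-- at least two faces in `K` -/
def tt (x : Fin 3 → Bool) : ℕ := if 2 ≤ nn x then 1 else 0
/-- at least one face in `K` -/
def uu (x : Fin 3 → Bool) : ℕ := if x 0 || (x 1 || x 2) then 1 else 0

theorem dd_eq (x : Fin 3 → Bool) : dd x = 3 * tt x + 2 * oo x := by revert x; decide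
theorem uu_eq (x : Fin 3 → Bool) : uu x = tt x + oo x := by revert x; decide
theorem min_eq (x : Fin 3 → Bool) : min 2 (nn x) = oo x + 2 * tt x := by revert x; decide
theorem or3 (x : Fin 3 → Bool) : (x 0 || (x 1 || x 2)) = true ↔ ∃ c, x c = true := by
  revert x; decide
theorem or3' (x : Fin 3 → Bool) (i : Fin 3) :
    (x 0 || (x 1 || x 2)) = (x i || (x (i + 1) || x (i + 2))) := by
  revert x i; decide

variable {B W V : Type} [Fintype B] [Fintype W] [Fintype V] (M : PMap B W V) (K : Finset V)

open Classical in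
/-- the faces of a black vertex which are in `K` -/
noncomputable def xb (b : B) (c : Fin 3) : Bool := decide (M.c c b ∈ K)

open Classical in
/-- the faces of a white vertex which are in `K` -/
noncomputable def xw (w : W) (c : Fin 3) : Bool := decide (M.cw c w ∈ K)

theorem xw_e {i j : Fin 3} (h : i ≠ j) (b : B) : xw M K (M.e i b) j = xb M K b j := by
  unfold xw xb; rw [M.cw_e _ _ h]

theorem xb_iff (b : B) (c : Fin 3) : xb M K b c = true ↔ M.c c b ∈ K := by
  unfold xb; simp

theorem xw_iff (w : W) (c : Fin 3) : xw M K w c = true ↔ M.cw c w ∈ K := by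
  unfold xw; simp

/-- the edges on the boundary of a face in `K` -/
noncomputable def EH : Finset (B × Fin 3) :=
  univ.filter fun q => (xb M K q.1 (q.2 + 1) || xb M K q.1 (q.2 + 2)) = true

/-- the vertices on the boundary of a face in `K` -/
noncomputable def UH : Finset (B ⊕ W) :=
  univ.filter fun x => (Sum.elim (fun b => xb M K b 0 || (xb M K b 1 || xb M K b 2))
    (fun w => xw M K w 0 || (xw M K w 1 || xw M K w 2)) x) = true

theorem card_EH_b : (EH M K).card = ∑ b, dd (xb M K b) := by
  unfold EH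
  rw [card_filter, Fintype.sum_prod_type]
  rfl

theorem card_EH_w : (EH M K).card = ∑ w, dd (xw M K w) := by
  unfold EH
  rw [card_filter, Fintype.sum_prod_type, sum_comm]
  unfold dd
  rw [sum_comm (s := (univ : Finset W))]
  refine sum_congr rfl fun i _ => ?_
  rw [← Equiv.sum_comp (M.e i)]
  refine sum_congr rfl fun b _ => ?_
  rw [xw_e M K (fne1 i).symm, xw_e M K (fne2 i).symm]

theorem card_UH : (UH M K).card = ∑ b, uu (xb M K b) + ∑ w, uu (xw M K w) := by
  unfold UH
  rw [card_filter, Fintype.sum_sum_type]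
  rfl

/-- the class of an edge outside of `EH`: black end in `UH`, white end in `UH` -/
noncomputable def ty (p q : Bool) : ℕ :=
  (univ.filter fun z : B × Fin 3 => (xb M K z.1 (z.2 + 1) || xb M K z.1 (z.2 + 2)) = false ∧
    xb M K z.1 z.2 = p ∧ xw M K (M.e z.2 z.1) z.2 = q).card

theorem b1_eq : ∑ b, oo (xb M K b) = ty M K true true + ty M K true false := by
  classical
  have h : ∑ b, oo (xb M K b) = (univ.filter fun z : B × Fin 3 =>
      (xb M K z.1 z.2 && !(xb M K z.1 (z.2 + 1) || xb M K z.1 (z.2 + 2))) = true).card := by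
    rw [card_filter, Fintype.sum_prod_type]
    rfl
  rw [h]
  unfold ty
  rw [← card_union_of_disjoint]
  · congr 1
    ext z
    simp only [mem_filter, mem_union, mem_univ, true_and]
    cases xb M K z.1 z.2 <;> cases xb M K z.1 (z.2 + 1) <;> cases xb M K z.1 (z.2 + 2) <;>
      cases xw M K (M.e z.2 z.1) z.2 <;> simp
  · rw [disjoint_filter]
    rintro z - ⟨-, -, h1⟩ ⟨-, -, h2⟩
    rw [h1] at h2
    exact absurd h2 (by simp)

theorem w1_eq : ∑ w, oo (xw M K w) = ty M K true true + ty M K false true := by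
  classical
  have h : ∑ w, oo (xw M K w) = (univ.filter fun z : B × Fin 3 =>
      (xw M K (M.e z.2 z.1) z.2 &&
        !(xb M K z.1 (z.2 + 1) || xb M K z.1 (z.2 + 2))) = true).card := by
    rw [card_filter, Fintype.sum_prod_type, sum_comm]
    unfold oo
    rw [sum_comm (s := (univ : Finset W))]
    refine sum_congr rfl fun i _ => ?_
    rw [← Equiv.sum_comp (M.e i)]
    refine sum_congr rfl fun b _ => ?_
    rw [xw_e M K (fne1 i).symm, xw_e M K (fne2 i).symm]
  rw [h]
  unfold ty
  rw [← card_union_of_disjoint]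
  · congr 1
    ext z
    simp only [mem_filter, mem_union, mem_univ, true_and]
    cases xb M K z.1 z.2 <;> cases xb M K z.1 (z.2 + 1) <;> cases xb M K z.1 (z.2 + 2) <;>
      cases xw M K (M.e z.2 z.1) z.2 <;> simp
  · rw [disjoint_filter]
    rintro z - ⟨-, h1, -⟩ ⟨-, h2, -⟩
    rw [h1] at h2
    exact absurd h2 (by simp)

/-- the black vertices of `UH` -/
def SS : Set B := {b | ∃ c, M.c c b ∈ K}
/-- the white vertices of `UH` -/
def TT : Set W := {w | ∃ c, M.cw c w ∈ K}

theorem mem_SS (b : B) : b ∈ SS M K ↔ (xb M K b 0 || (xb M K b 1 || xb M K b 2)) = true := by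
  rw [or3]
  exact exists_congr fun c => (xb_iff M K b c).symm

theorem mem_TT (w : W) : w ∈ TT M K ↔ (xw M K w 0 || (xw M K w 1 || xw M K w 2)) = true := by
  rw [or3]
  exact exists_congr fun c => (xw_iff M K w c).symm

theorem cut_eq : cutc M (SS M K) (TT M K) = ty M K true false + ty M K false true := by
  classical
  have h : cutc M (SS M K) (TT M K) = (univ.filter fun z : B × Fin 3 =>
      ¬ (z.1 ∈ SS M K ↔ M.e z.2 z.1 ∈ TT M K)).card := by
    unfold cutc
    refine card_bij' (fun z _ => (z.2, z.1)) (fun z _ => (z.2, z.1)) ?_ ?_ ?_ ?_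
    · intro z hz
      simpa using hz
    · intro z hz
      simpa using hz
    · intro z _; rfl
    · intro z _; rfl
  rw [h]
  unfold ty
  rw [← card_union_of_disjoint]
  · congr 1
    ext z
    simp only [mem_filter, mem_union, mem_univ, true_and]
    rw [mem_SS, mem_TT, or3' _ z.2, or3' _ z.2, xw_e M K (fne1 z.2).symm, xw_e M K (fne2 z.2).symm]
    cases xb M K z.1 z.2 <;> cases xb M K z.1 (z.2 + 1) <;> cases xb M K z.1 (z.2 + 2) <;>
      cases xw M K (M.e z.2 z.1) z.2 <;> simp
  · rw [disjoint_filter]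
    rintro z - ⟨-, h1, -⟩ ⟨-, h2, -⟩
    rw [h1] at h2
    exact absurd h2 (by simp)

/-- **The numerical inequality** for a connected set of faces. -/
theorem ineq_of_conn (hS : M.Conn) (h3 : C3 M) (h4 : C4 M) (b₀ : B) (hb₀ : ∀ j, M.c j b₀ ∉ K)
    (b₁ : B) (j₁ : Fin 3) (hb₁ : M.c j₁ b₁ ∈ K)
    (conn : ∀ x ∈ UH M K, ∀ y ∈ UH M K, Relation.EqvGen
      (fun x y : B ⊕ W => ∃ q ∈ EH M K, x = Sum.inl q.1 ∧ y = Sum.inr (M.e q.2 q.1)) x y) :
    2 * K.card ≤ ∑ b, min 2 (nn (xb M K b)) := by
  classical
  have hrank : K.card + (UH M K).card ≤ (EH M K).card + 1 := by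
    refine H84.face_rank M hS K ?_ (EH M K) (UH M K) ?_ ?_ conn
    · rintro rfl
      exact hb₀ 0 (mem_univ _)
    · intro q hq
      unfold EH at hq
      unfold UH
      simp only [mem_filter, mem_univ, true_and, Sum.elim_inl, Sum.elim_inr] at hq ⊢
      rw [or3' _ q.2, or3' _ q.2, xw_e M K (fne1 q.2).symm, xw_e M K (fne2 q.2).symm, hq]
      simp
    · intro i b h
      unfold EH
      simp only [mem_filter, mem_univ, true_and, Bool.or_eq_true, xb_iff]
      exact h
  have e1 := card_EH_b M K
  have e2 := card_EH_w M K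
  have e3 := card_UH M K
  have e4 := b1_eq M K
  have e5 := w1_eq M K
  have e6 := cut_eq M K
  simp only [dd_eq, uu_eq, sum_add_distrib, ← mul_sum] at e1 e2 e3
  simp only [min_eq, sum_add_distrib, ← mul_sum]
  have hS0 : b₀ ∉ SS M K := by
    rintro ⟨c, hc⟩
    exact hb₀ c hc
  have hS1 : b₁ ∈ SS M K := ⟨j₁, hb₁⟩
  have hT1 : M.e (j₁ + 1) b₁ ∈ TT M K := ⟨j₁, by rw [M.cw_e1]; exact hb₁⟩
  have c3 := h3 (SS M K) (TT M K) (Or.inl ⟨b₁, hS1⟩) (Or.inl ⟨b₀, hS0⟩)
  have c4 : cutc M (SS M K) (TT M K) = 3 → ty M K true false = 0 := by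
    intro hc
    rcases h4 _ _ hc with h | h
    · exfalso
      have h1 : 1 ≤ (SS M K).ncard := (Set.ncard_pos (Set.toFinite _)).2 ⟨b₁, hS1⟩
      have h2 : 1 ≤ (TT M K).ncard := (Set.ncard_pos (Set.toFinite _)).2 ⟨_, hT1⟩
      omega
    · have h1 : 1 ≤ (SS M K)ᶜ.ncard := (Set.ncard_pos (Set.toFinite _)).2 ⟨b₀, hS0⟩
      have h2 : (TT M K)ᶜ.ncard = 0 := by omega
      rw [Set.ncard_eq_zero (Set.toFinite _)] at h2
      unfold ty
      rw [card_eq_zero, filter_eq_empty_iff]
      rintro z - ⟨h5, h6, h7⟩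
      have h8 : M.e z.2 z.1 ∈ TT M K := by
        by_contra h9
        have : M.e z.2 z.1 ∈ (TT M K)ᶜ := h9
        rw [h2] at this
        exact this
      rw [mem_TT, or3' _ z.2, xw_e M K (fne1 z.2).symm, xw_e M K (fne2 z.2).symm, h5, h7] at h8
      exact absurd h8 (by simp)
  omega

/-- the relation of being joined by the edges of `EH` -/
def RR : B ⊕ W → B ⊕ W → Prop := Relation.EqvGen
  (fun x y : B ⊕ W => ∃ q ∈ EH M K, x = Sum.inl q.1 ∧ y = Sum.inr (M.e q.2 q.1))

theorem RR_edge {i : Fin 3} {b : B} (h : M.c (i + 1) b ∈ K ∨ M.c (i + 2) b ∈ K) :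
    RR M K (Sum.inl b) (Sum.inr (M.e i b)) := by
  refine Relation.EqvGen.rel _ _ ⟨(b, i), ?_, rfl, rfl⟩
  unfold EH
  simp only [mem_filter, mem_univ, true_and, Bool.or_eq_true, xb_iff]
  exact h

/-- the black vertices of a face of `K` are joined -/
theorem RR_face {j : Fin 3} {b b' : B} (h : M.c j b ∈ K) (hb : M.c j b = M.c j b') :
    RR M K (Sum.inl b) (Sum.inl b') := by
  have key : ∀ x y : B, Relation.EqvGen (fun x y => M.e (j + 1) y = M.e (j + 2) x) x y →
      M.c j x ∈ K → RR M K (Sum.inl x) (Sum.inl y) := by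
    intro x y hxy
    induction hxy with
    | rel x y hr =>
      intro hx
      have hy : M.c j y ∈ K := by rw [M.step j x y hr]; exact hx
      have h1 : RR M K (Sum.inl x) (Sum.inr (M.e (j + 2) x)) :=
        RR_edge M K (Or.inl (by rw [f21]; exact hx))
      have h2 : RR M K (Sum.inl y) (Sum.inr (M.e (j + 1) y)) :=
        RR_edge M K (Or.inr (by rw [f12]; exact hy))
      rw [hr] at h2
      exact h1.trans _ _ _ (h2.symm _ _)
    | refl x => intro _; exact Relation.EqvGen.refl _
    | symm x y hr ih =>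
      intro hx
      exact (ih (by rw [M.c_of_eqvGen hr]; exact hx)).symm _ _
    | trans x y z h1 h2 ih1 ih2 =>
      intro hx
      exact (ih1 hx).trans _ _ _ (ih2 (by rw [← M.c_of_eqvGen h1]; exact hx))
  exact key b b' (M.exact j b b' hb) h

theorem nn_eq (b : B) : nn (xb M K b) = (univ.filter fun c : Fin 3 => xb M K b c = true).card := by
  unfold nn
  rw [card_filter]

/-- **Hall's condition.** -/
theorem hall (hS : M.Conn) (h3 : C3 M) (h4 : C4 M) (b₀ : B) :
    ∀ (n : ℕ) (K : Finset V), K.card = n → (∀ j, M.c j b₀ ∉ K) →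
      2 * K.card ≤ ∑ b, min 2 (nn (xb M K b)) := by
  classical
  intro n
  induction n using Nat.strong_induction_on with
  | _ n ih =>
    intro K hn hb₀
    rcases K.eq_empty_or_nonempty with rfl | ⟨v₀, hv₀⟩
    · simp
    obtain ⟨j₁, b₁, hb₁⟩ := M.surj v₀
    by_cases hall : ∀ j b, M.c j b ∈ K → RR M K (Sum.inl b₁) (Sum.inl b)
    · -- connected
      refine ineq_of_conn M K hS h3 h4 b₀ hb₀ b₁ j₁ (hb₁ ▸ hv₀) ?_
      have key : ∀ x ∈ UH M K, RR M K (Sum.inl b₁) x := by
        intro x hx
        unfold UH at hx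
        simp only [mem_filter, mem_univ, true_and] at hx
        rcases x with b | w
        · obtain ⟨c, hc⟩ := (mem_SS M K b).2 hx
          exact hall c b hc
        · obtain ⟨c, hc⟩ := (mem_TT M K w).2 hx
          have h1 : M.c c ((M.e (c + 1)).symm w) ∈ K := hc
          have h2 := RR_edge M K (i := c + 1) (b := (M.e (c + 1)).symm w)
            (Or.inr (by rw [f12]; exact h1))
          rw [Equiv.apply_symm_apply] at h2
          exact (hall c _ h1).trans _ _ _ h2
      intro x hx y hy
      exact ((key x hx).symm _ _).trans _ _ _ (key y hy)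
    · push Not at hall
      obtain ⟨j₂, b₂, hb₂, hnot⟩ := hall
      set K1 := K.filter fun v => ∃ j b, M.c j b = v ∧ RR M K (Sum.inl b₁) (Sum.inl b) with hK1
      set K2 := K.filter fun v => ¬ ∃ j b, M.c j b = v ∧ RR M K (Sum.inl b₁) (Sum.inl b) with hK2
      have hcard : K1.card + K2.card = K.card := card_filter_add_card_filter_not _
      have hm1 : v₀ ∈ K1 := by
        rw [hK1, mem_filter]
        exact ⟨hv₀, j₁, b₁, hb₁, Relation.EqvGen.refl _⟩
      have hm2 : M.c j₂ b₂ ∈ K2 := by
        rw [hK2, mem_filter]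
        refine ⟨hb₂, ?_⟩
        rintro ⟨j, b, hjb, hr⟩
        have hj := M.cls _ _ _ _ hjb
        subst hj
        exact hnot (hr.trans _ _ _ (RR_face M K (by rw [hjb]; exact hb₂) hjb))
      have c1 : 0 < K1.card := card_pos.2 ⟨_, hm1⟩
      have c2 : 0 < K2.card := card_pos.2 ⟨_, hm2⟩
      have i1 := ih K1.card (by omega) K1 rfl (fun j hj => hb₀ j (mem_filter.1 hj).1)
      have i2 := ih K2.card (by omega) K2 rfl (fun j hj => hb₀ j (mem_filter.1 hj).1)
      have hsplit : ∀ b, min 2 (nn (xb M K1 b)) + min 2 (nn (xb M K2 b)) =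
          min 2 (nn (xb M K b)) := by
        intro b
        by_cases hr : RR M K (Sum.inl b₁) (Sum.inl b)
        · have h1 : xb M K1 b = xb M K b := by
            funext c
            rw [Bool.eq_iff_iff, xb_iff, xb_iff, hK1, mem_filter]
            exact ⟨fun h => h.1, fun h => ⟨h, c, b, rfl, hr⟩⟩
          have h2 : nn (xb M K2 b) = 0 := by
            rw [nn_eq, card_eq_zero, filter_eq_empty_iff]
            intro c _
            rw [xb_iff, hK2, mem_filter]
            exact fun h => h.2 ⟨c, b, rfl, hr⟩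
          rw [h1, h2]; simp
        · have h1 : nn (xb M K1 b) = 0 := by
            rw [nn_eq, card_eq_zero, filter_eq_empty_iff]
            intro c _
            rw [xb_iff, hK1, mem_filter]
            rintro ⟨h, j, b', hjb, hr'⟩
            have hj := M.cls _ _ _ _ hjb
            subst hj
            exact hr (hr'.trans _ _ _ (RR_face M K (by rw [hjb]; exact h) hjb))
          have h2 : xb M K2 b = xb M K b := by
            funext c
            rw [Bool.eq_iff_iff, xb_iff, xb_iff, hK2, mem_filter]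
            refine ⟨fun h => h.1, fun h => ⟨h, ?_⟩⟩
            rintro ⟨j, b', hjb, hr'⟩
            have hj := M.cls _ _ _ _ hjb
            subst hj
            exact hr (hr'.trans _ _ _ (RR_face M K (by rw [hjb]; exact h) hjb))
          rw [h1, h2]; simp
      have hs := sum_congr rfl (fun b (_ : b ∈ (univ : Finset B)) => hsplit b)
      rw [sum_add_distrib] at hs
      omega

omit [Fintype W] in
theorem card_off (hV : Fintype.card V = Fintype.card B + 2) (b₀ : B)
    [Fintype (BOff b₀)] [Fintype (VOff M b₀)] :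
    Fintype.card (BOff b₀) = Fintype.card (VOff M b₀) := by
  classical
  have h1 : Fintype.card (BOff b₀) = Fintype.card B - 1 := by
    have := Fintype.card_subtype_compl (fun b : B => b = b₀)
    rw [Fintype.card_subtype_eq] at this
    rw [← this]
  have h2 : Fintype.card {v : V // ∃ j, M.c j b₀ = v} = 3 := by
    have e : Fin 3 ≃ {v : V // ∃ j, M.c j b₀ = v} :=
      Equiv.ofBijective (fun j => ⟨M.c j b₀, j, rfl⟩) ⟨fun i j h =>
        M.cls _ _ _ _ (congrArg Subtype.val h), fun v => by
          obtain ⟨j, hj⟩ := v.2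
          exact ⟨j, Subtype.ext hj⟩⟩
    rw [← Fintype.card_congr e]; rfl
  have h3 : Fintype.card (VOff M b₀) = Fintype.card V - 3 := by
    have := Fintype.card_subtype_compl (fun v : V => ∃ j, M.c j b₀ = v)
    rw [h2] at this
    rw [← this]
    exact Fintype.card_congr (Equiv.subtypeEquivRight fun v => by simp)
  have h4 : 0 < Fintype.card B := Fintype.card_pos_iff.2 ⟨b₀⟩
  omega

omit [Fintype B] [Fintype W] [Fintype V] in
theorem Fo_eq (b₀ : B) (b : BOff b₀) (c : Fin 3) (v : VOff M b₀) :
    Fo M b₀ b c = some v ↔ M.c c b.1 = v.1 := by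
  unfold Fo
  constructor
  · intro h
    split_ifs at h with hj
    exact congrArg Subtype.val (Option.some.inj h)
  · intro h
    have hj : ∀ i, M.c i b₀ ≠ M.c c b.1 := fun i => by rw [h]; exact v.2 i
    rw [dif_pos hj]
    exact congrArg some (Subtype.ext h)

/-- **STEP 5.** -/
theorem pairStmt : PairStmt := by
  intro B W V _ _ _ M hM h3 h4 b₀
  classical
  obtain ⟨f, g, e, e', hfg, he, he'⟩ := H484.two_matchings_option (Fo M b₀)
    (card_off M hM.card b₀) (by
      intro K
      have hh := hall M hM.conn h3 h4 b₀ _ (K.map (Function.Embedding.subtype _)) rfl (by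
        intro j hj
        obtain ⟨v, -, hv⟩ := mem_map.1 hj
        exact v.2 j hv.symm)
      rw [card_map] at hh
      refine hh.trans ?_
      have h0 : min 2 (nn (xb M (K.map (Function.Embedding.subtype _)) b₀)) = 0 := by
        have : nn (xb M (K.map (Function.Embedding.subtype _)) b₀) = 0 := by
          rw [nn_eq, card_eq_zero, filter_eq_empty_iff]
          intro c _
          rw [xb_iff]
          intro hj
          obtain ⟨v, -, hv⟩ := mem_map.1 hj
          exact v.2 c hv.symm
        rw [this]; simp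
      have h5 : ∑ b, min 2 (nn (xb M (K.map (Function.Embedding.subtype _)) b)) =
          ∑ b : BOff b₀, min 2 (nn (xb M (K.map (Function.Embedding.subtype _)) b.1)) := by
        rw [← Fintype.sum_subtype_add_sum_subtype (fun b : B => b ≠ b₀)
          (fun b => min 2 (nn (xb M (K.map (Function.Embedding.subtype _)) b)))]
        refine (Nat.add_eq_left.2 (sum_eq_zero fun b _ => ?_)).trans ?_
        · rw [not_not.1 b.2]
          exact h0
        · rfl
      rw [h5]
      refine sum_le_sum fun b _ => le_of_eq ?_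
      congr 1
      rw [nn_eq]
      congr 1
      ext c
      simp only [mem_filter, mem_univ, true_and]
      rw [xb_iff, mem_map]
      refine exists_congr fun v => and_congr_right fun _ => ?_
      rw [Fo_eq]
      exact eq_comm)
  exact ⟨f, g, ⟨e, he⟩, ⟨e', he'⟩, hfg⟩

end Vale.Agent.P039.H622
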